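import Vale.Agent.P181.TB.Defs

set_option autoImplicit false

open scoped BigOperators

namespace Vale.Agent.P181.TB.H388

open Finset

/-- Marginals with prescribed positive entries. -/
lemma mat (hM : Marg) {α β : Type} [Fintype α] [Fintype β] [DecidableEq β] (r : α → ℕ)
    (s : β → ℕ) (f : α → β) (hr : ∀ x, 1 ≤ r x)
    (hs : ∀ y, ∑ x, (if f x = y then 1 else 0) ≤ s y) (h : ∑ x, r x = ∑ y, s y) :
    ∃ m : α → β → ℕ, (∀ x, ∑ y, m x y = r x) ∧ (∀ y, ∑ x, m x y = s y) ∧
      ∀ x, 1 ≤ m x (f x) := by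
  have e1 : ∑ x, (r x - 1) + ∑ x : α, 1 = ∑ x, r x := by
    rw [← sum_add_distrib]
    exact sum_congr rfl fun x _ => Nat.sub_add_cancel (hr x)
  have e2 : ∑ y, (s y - ∑ x, (if f x = y then 1 else 0)) +
      ∑ y, ∑ x, (if f x = y then 1 else 0) = ∑ y, s y := by
    rw [← sum_add_distrib]
    exact sum_congr rfl fun y _ => Nat.sub_add_cancel (hs y)
  have e3 : ∑ y, ∑ x, (if f x = y then 1 else 0) = ∑ x : α, 1 := by
    rw [sum_comm]
    exact sum_congr rfl fun x _ => by simp
  obtain ⟨m, h1, h2⟩ := hM α β (fun x => r x - 1)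
    (fun y => s y - ∑ x, (if f x = y then 1 else 0)) (by omega)
  refine ⟨fun x y => m x y + (if f x = y then 1 else 0), fun x => ?_, fun y => ?_, fun x => ?_⟩
  · rw [sum_add_distrib, h1]
    have h3 := hr x
    simp only [sum_ite_eq, mem_univ, if_true]
    omega
  · rw [sum_add_distrib, h2]
    exact Nat.sub_add_cancel (hs y)
  · simp

/-- The multiplicities of the outside brackets. -/
def Mf (F R x y : ℕ) : ℕ :=
  (if x = y then F + (if 2 * y < R then 1 else 0) else 0) +
    (if x = y + 1 then F + (if 2 * y + 1 < R then 1 else 0) else 0)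

lemma Mf_col (F R N K : ℕ) (hN : K + 1 ≤ N) (y : Fin K) :
    ∑ x : Fin N, Mf F R x y =
      2 * F + ((if 2 * (y : ℕ) < R then 1 else 0) + (if 2 * (y : ℕ) + 1 < R then 1 else 0)) := by
  rw [Fin.sum_univ_eq_sum_range (fun x => Mf F R x y) N]
  have hy := y.2
  simp only [Mf, sum_add_distrib, sum_ite_eq']
  rw [if_pos (mem_range.2 (by omega)), if_pos (mem_range.2 (by omega))]
  ring

lemma Mf_row (F R K x : ℕ) : ∑ y : Fin K, Mf F R x y ≤ 2 * F + 2 := by
  rw [Fin.sum_univ_eq_sum_range (fun y => Mf F R x y) K]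
  simp only [Mf, sum_add_distrib]
  have h1 : ∑ y ∈ range K, (if x = y then F + (if 2 * y < R then 1 else 0) else 0) ≤ F + 1 := by
    rw [sum_ite_eq]
    split_ifs <;> omega
  have h2 : ∑ y ∈ range K, (if x = y + 1 then F + (if 2 * y + 1 < R then 1 else 0) else 0) ≤
      F + 1 := by
    rcases Nat.eq_zero_or_pos x with h | h
    · subst h
      rw [sum_eq_zero]
      · omega
      · intro y _
        rw [if_neg (by omega)]
    · obtain ⟨x', rfl⟩ : ∃ x', x = x' + 1 := ⟨x - 1, by omega⟩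
      have h3 : ∀ y ∈ range K, (if x' + 1 = y + 1 then F + (if 2 * y + 1 < R then 1 else 0) else 0) =
          (if x' = y then F + (if 2 * y + 1 < R then 1 else 0) else 0) := by
        intro y _
        by_cases h4 : x' = y
        · rw [if_pos (by omega), if_pos h4]
        · rw [if_neg (by omega), if_neg h4]
      rw [sum_congr rfl h3, sum_ite_eq]
      split_ifs <;> omega
  omega

lemma bits (R K : ℕ) : ∑ y ∈ range K, ((if 2 * y < R then 1 else 0) +
    (if 2 * y + 1 < R then 1 else 0)) = min R (2 * K) := by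
  induction K with
  | zero => simp
  | succ K ih =>
    rw [sum_range_succ, ih]
    split_ifs <;> omega

lemma Mf_tot (F R N K : ℕ) (hN : K + 1 ≤ N) (hR : R ≤ 2 * K) :
    ∑ x : Fin N, ∑ y : Fin K, Mf F R x y = 2 * K * F + R := by
  rw [sum_comm, sum_congr rfl (fun y _ => Mf_col F R N K hN y), sum_add_distrib,
    Fin.sum_univ_eq_sum_range (fun y => (if 2 * y < R then 1 else 0) +
      (if 2 * y + 1 < R then 1 else 0)) K, bits, Nat.min_eq_left hR, sum_const, card_univ,
    Fintype.card_fin, smul_eq_mul]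
  ring

lemma first (N d : ℕ) (h : d ≤ N) : ∑ x : Fin N, (if (x : ℕ) < d then 1 else 0) = d := by
  rw [Fin.sum_univ_eq_sum_range (fun x => if x < d then 1 else 0) N, ← sum_filter]
  have h1 : (range N).filter (fun x => x < d) = range d := by
    ext x
    simp only [mem_filter, mem_range]
    omega
  rw [h1]
  simp

/-- Alternation along the path. -/
lemma up_path (F R N K : ℕ) (hN : K + 1 ≤ N) (hF : 1 ≤ F) (s : Fin N ⊕ Fin K → Bool)
    (hs : (univ.filter fun x => s x = true).card = N)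
    (h : ∀ (x : Fin N) (y : Fin K), Mf F R x y ≠ 0 → s (Sum.inl x) ≠ s (Sum.inr y)) :
    (∀ x, s (Sum.inl x) = true) ∧ ∀ y, s (Sum.inr y) = false := by
  have h1 : ∀ y : Fin K, s (Sum.inl ⟨y, by omega⟩) ≠ s (Sum.inr y) := by
    intro y
    apply h
    unfold Mf
    rw [if_pos rfl]
    omega
  have h2 : ∀ y : Fin K, s (Sum.inl ⟨(y : ℕ) + 1, by omega⟩) ≠ s (Sum.inr y) := by
    intro y
    apply h
    unfold Mf
    rw [if_pos (show ((⟨(y : ℕ) + 1, by omega⟩ : Fin N) : ℕ) = (y : ℕ) + 1 from rfl)]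
    omega
  have h3 : ∀ i (hi : i < K + 1), s (Sum.inl ⟨i, by omega⟩) = s (Sum.inl ⟨0, by omega⟩) := by
    intro i
    induction i with
    | zero => intro _; rfl
    | succ i ih =>
      intro hi
      have h4 := h1 ⟨i, by omega⟩
      have h5 := h2 ⟨i, by omega⟩
      rw [← ih (by omega)]
      revert h4 h5
      cases s (Sum.inl ⟨i, by omega⟩) <;> cases s (Sum.inl ⟨i + 1, by omega⟩) <;>
        cases s (Sum.inr ⟨i, by omega⟩) <;> simp
  rcases hb : s (Sum.inl ⟨0, by omega⟩) with _ | _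
  · exfalso
    have h6 : (univ.filter fun x => s x = true) ⊆
        univ \ (univ.image (fun i : Fin (K + 1) => (Sum.inl ⟨i, by omega⟩ : Fin N ⊕ Fin K))) := by
      intro x hx
      rw [mem_filter] at hx
      rw [mem_sdiff]
      refine ⟨mem_univ _, fun h7 => ?_⟩
      rw [mem_image] at h7
      obtain ⟨i, _, rfl⟩ := h7
      have h8 := h3 i i.2
      rw [hb] at h8
      rw [h8] at hx
      exact absurd hx.2 (by simp)
    have h7 := card_le_card h6
    rw [card_sdiff_of_subset (subset_univ _), card_image_of_injective, hs] at h7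
    · simp only [card_univ, Fintype.card_sum, Fintype.card_fin] at h7
      omega
    · intro i j hij
      simp only [Sum.inl.injEq, Fin.mk.injEq] at hij
      exact Fin.ext hij
  · have h5 : ∀ y, s (Sum.inr y) = false := by
      intro y
      have h6 := h1 y
      rw [h3 y (by omega), hb] at h6
      cases h7 : s (Sum.inr y)
      · rfl
      · rw [h7] at h6
        exact absurd rfl h6
    refine ⟨?_, h5⟩
    have h6 : (univ.filter fun x => s x = true) ⊆
        univ.image (fun i : Fin N => (Sum.inl i : Fin N ⊕ Fin K)) := by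
      intro x hx
      rw [mem_filter] at hx
      rcases x with x | y
      · exact mem_image_of_mem _ (mem_univ _)
      · rw [h5 y] at hx
        exact absurd hx.2 (by simp)
    have h7 : (univ.filter fun x => s x = true) =
        univ.image (fun i : Fin N => (Sum.inl i : Fin N ⊕ Fin K)) := by
      apply eq_of_subset_of_card_le h6
      rw [hs, card_image_of_injective _ Sum.inl_injective, card_univ, Fintype.card_fin]
    intro x
    have h8 : (Sum.inl x : Fin N ⊕ Fin K) ∈ univ.filter (fun x => s x = true) := by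
      rw [h7]
      exact mem_image_of_mem _ (mem_univ _)
    exact (mem_filter.1 h8).2

/-- The number of a letter. -/
def ix {a q : ℕ} (j : Fin a × Fin q) : ℕ := finProdFinEquiv j

lemma ix_lt {a q : ℕ} (j : Fin a × Fin q) : ix j < a * q := (finProdFinEquiv j).2

lemma ix_inj {a q : ℕ} (j j' : Fin a × Fin q) (h : ix j = ix j') : j = j' :=
  finProdFinEquiv.injective (Fin.ext h)

lemma sum_ix {a q : ℕ} (g : ℕ → ℕ) : ∑ j : Fin a × Fin q, g (ix j) = ∑ i ∈ range (a * q), g i := by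
  rw [← Fin.sum_univ_eq_sum_range]
  exact Fintype.sum_equiv finProdFinEquiv _ _ (fun j => rfl)

/-- The labels. -/
lemma labels (a q m S Mx : ℕ) (hq : 2 ≤ q) (ha : 100 * q ≤ a) (hm : 8 * q ≤ m)
    (hMx : 64 * Mx ≤ a) (h1 : 2 * S ≤ (a * q + 2) * a) (h2 : a * q * a ≤ 2 * S + a * q * Mx) :
    ∃ al : Fin a × Fin q → ℕ, (∀ j, 1 ≤ al j) ∧ (∀ j, al j + Mx + 1 ≤ a) ∧ ∑ j, al j = S ∧
      ∀ j j' : Fin a × Fin q, al j = al j' → (j.1 : ℕ) / m = (j'.1 : ℕ) / m ∧ j.2 = j'.2 := by
  set n := a * q with hn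
  have hn2 : 2 * a ≤ n := by rw [hn]; nlinarith
  have hn0 : 0 < n := by omega
  have hcls : ∀ j : Fin a × Fin q, 8 * (q * ((j.1 : ℕ) / m) + j.2) + 8 ≤ a + 8 * q := by
    intro j
    have e1 : ((j.1 : ℕ) / m) * m ≤ a := (Nat.div_mul_le_self _ _).trans j.1.2.le
    have e2 : ((j.1 : ℕ) / m) * (8 * q) ≤ ((j.1 : ℕ) / m) * m := Nat.mul_le_mul_left _ hm
    have e3 := j.2.2
    nlinarith
  set P := ∑ j : Fin a × Fin q, 2 * (q * ((j.1 : ℕ) / m) + j.2) with hP
  have hP4 : 4 * P ≤ n * (a + 8 * q) := by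
    rw [hP, mul_sum]
    have e1 : ∀ j : Fin a × Fin q, 4 * (2 * (q * ((j.1 : ℕ) / m) + j.2)) ≤ a + 8 * q := by
      intro j
      have := hcls j
      omega
    refine (sum_le_sum (fun j _ => e1 j)).trans ?_
    rw [sum_const, card_univ, Fintype.card_prod, Fintype.card_fin, Fintype.card_fin, smul_eq_mul]
  have hS : n + P ≤ S := by
    have e1 : n * (4 + (a + 8 * q) + 2 * Mx) ≤ n * (2 * a) := Nat.mul_le_mul_left _ (by omega)
    nlinarith
  set B₀ := (S - P) / n with hB
  set E := (S - P) % n with hE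
  have hdiv : n * B₀ + E = S - P := Nat.div_add_mod _ _
  have hEn : E < n := Nat.mod_lt _ hn0
  have hB1 : 1 ≤ B₀ := (Nat.one_le_div_iff hn0).2 (by omega)
  have hB2 : 2 * B₀ ≤ a + 1 := by
    apply Nat.le_of_mul_le_mul_left _ hn0
    have e1 : n * B₀ ≤ S := by omega
    calc n * (2 * B₀) = 2 * (n * B₀) := by ring
      _ ≤ 2 * S := by omega
      _ ≤ (n + 2) * a := h1
      _ = n * a + 2 * a := by ring
      _ ≤ n * a + n := by omega
      _ = n * (a + 1) := by ring
  refine ⟨fun j => B₀ + 2 * (q * ((j.1 : ℕ) / m) + j.2) + (if ix j < E then 1 else 0),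
    fun j => by dsimp only; omega, fun j => ?_, ?_, fun j j' h => ?_⟩
  · have e1 := hcls j
    simp only
    split_ifs <;> omega
  · rw [sum_add_distrib, sum_add_distrib, ← hP, sum_const, card_univ, Fintype.card_prod,
      Fintype.card_fin, Fintype.card_fin, smul_eq_mul, ← hn,
      sum_ix (fun i => if i < E then 1 else 0), ← Fin.sum_univ_eq_sum_range (fun i => if i < E then 1 else 0),
      first _ _ hEn.le]
    omega
  · simp only at h
    have e1 : q * ((j.1 : ℕ) / m) + j.2 = q * ((j'.1 : ℕ) / m) + j'.2 := by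
      split_ifs at h <;> omega
    have e2 : ((j.2 : ℕ) + q * ((j.1 : ℕ) / m)) % q = ((j'.2 : ℕ) + q * ((j'.1 : ℕ) / m)) % q := by
      rw [add_comm (j.2 : ℕ), add_comm (j'.2 : ℕ), e1]
    rw [Nat.add_mul_mod_self_left, Nat.add_mul_mod_self_left, Nat.mod_eq_of_lt j.2.2,
      Nat.mod_eq_of_lt j'.2.2] at e2
    refine ⟨?_, Fin.ext e2⟩
    rw [e2] at e1
    exact Nat.eq_of_mul_eq_mul_left (by omega : 0 < q) (by omega)

/-- At most three letters per frame. -/
lemma frame_le {a q : ℕ} (N : ℕ) (f : Fin a × Fin q → Fin N)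
    (hf : ∀ j, (f j : ℕ) = a * q + ix j / 3) (x : Fin N) :
    ∑ j, (if f j = x then 1 else 0) ≤ 3 := by
  rw [← card_filter]
  have h1 : (univ.filter fun j => f j = x).card ≤
      (Finset.Ico (3 * ((x : ℕ) - a * q)) (3 * ((x : ℕ) - a * q) + 3)).card := by
    apply card_le_card_of_injOn ix
    · intro j hj
      rw [mem_coe, mem_filter] at hj
      have h2 := hf j
      rw [hj.2] at h2
      rw [mem_coe, mem_Ico]
      omega
    · intro j _ j' _ h
      exact ix_inj j j' h
  rw [Nat.card_Ico] at h1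
  omega

/-- The partner cells. -/
lemma part_le {ι β : Type} [Fintype ι] [DecidableEq β] (u : ι → β) (hu : Function.Injective u)
    (c : ι → ℕ) (Mx : ℕ) (hc : ∀ j, c j ≤ Mx) (x : β) :
    ∑ j, (if u j = x then c j else 0) ≤ Mx := by
  classical
  by_cases h : ∃ j, u j = x
  · obtain ⟨j, rfl⟩ := h
    rw [sum_eq_single j]
    · rw [if_pos rfl]
      exact hc j
    · intro j' _ h'
      rw [if_neg (fun h => h' (hu h))]
    · intro h
      exact absurd (mem_univ _) h
  · rw [sum_eq_zero]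
    · exact Nat.zero_le _
    · intro j _
      rw [if_neg (fun h' => h ⟨j, h'⟩)]

lemma part_sum {ι β : Type} [Fintype ι] [Fintype β] [DecidableEq β] (u : ι → β) (c : ι → ℕ) :
    ∑ x, ∑ j, (if u j = x then c j else 0) = ∑ j, c j := by
  rw [sum_comm]
  exact sum_congr rfl fun j _ => by simp

/-- The numbers, first part. -/
lemma nums1 (a b q d : ℕ) (hq : 2 ≤ q) (ha : 100 * q ≤ a) (hd : d < a) (hb : 4 * q * a ≤ b) :
    ∃ ε K, (ε = 1 ∨ ε = 2) ∧ b = a * q + ε + 2 * K ∧ a * q + a * q / 3 + 1 ≤ K ∧ d ≤ K ∧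
      2 * a ≤ a * q ∧ 3 * (a * q) ≤ 2 * K + ε := by
  have hn2 : 2 * a ≤ a * q := by nlinarith
  have hb4 : 4 * (a * q) ≤ b := by nlinarith
  obtain ⟨ε, K, hε, hbK⟩ : ∃ ε K, (ε = 1 ∨ ε = 2) ∧ b = a * q + ε + 2 * K := by
    rcases Nat.even_or_odd' (b - a * q) with ⟨k, hk | hk⟩
    · exact ⟨2, k - 1, Or.inr rfl, by omega⟩
    · exact ⟨1, k, Or.inl rfl, by omega⟩
  exact ⟨ε, K, hε, hbK, by omega, by omega, hn2, by omega⟩

/-- `64 Mx ≤ a`. -/
lemma numsM (a b q Mx : ℕ) (hq : 2 ≤ q) (ha : 100 * q ≤ a) (hb : 4 * q * a ≤ b)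
    (hMx : 16 * Mx * b ≤ q * a ^ 2) : 64 * Mx ≤ a := by
  have e1 : (64 * Mx) * (q * a) ≤ a * (q * a) := by
    calc (64 * Mx) * (q * a) = 16 * Mx * (4 * q * a) := by ring
      _ ≤ 16 * Mx * b := Nat.mul_le_mul_left _ hb
      _ ≤ q * a ^ 2 := hMx
      _ = a * (q * a) := by ring
  have e2 : 0 < q * a := Nat.mul_pos (by omega) (by omega)
  exact Nat.le_of_mul_le_mul_right e1 e2

/-- The numbers, second part: `A = a n`, `B = a K`, `C = a ε`. -/
lemma nums2 (a n K ε t d Mx : ℕ) (hε : ε = 1 ∨ ε = 2) (ha : 200 ≤ a) (hn : 2 * a ≤ n)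
    (hK : 3 * n ≤ 2 * K + ε) (hd : d < a) (htn : t ≤ n * Mx) (hM : 64 * Mx ≤ a)
    (hpar : 2 ∣ a * (n + ε + 2 * K) + t + d) :
    ∃ Mt S, 2 * Mt + t + d + a * n = 2 * (a * K) + a * ε ∧ 2 * S + t + d = a * n + a * ε ∧
      2 * K ≤ Mt := by
  have hab : a * (n + ε + 2 * K) = a * n + a * ε + 2 * (a * K) := by ring
  rw [hab] at hpar
  have haε : a ≤ a * ε := by rcases hε with rfl | rfl <;> omega
  have hnMx : 64 * (n * Mx) ≤ a * n := by
    calc 64 * (n * Mx) = n * (64 * Mx) := by ring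
      _ ≤ n * a := Nat.mul_le_mul_left _ hM
      _ = a * n := mul_comm _ _
  have haK2 : 3 * (a * n) ≤ 2 * (a * K) + a * ε := by
    calc 3 * (a * n) = a * (3 * n) := by ring
      _ ≤ a * (2 * K + ε) := Nat.mul_le_mul_left _ hK
      _ = 2 * (a * K) + a * ε := by ring
  have han : 2 * a ≤ a * n := by
    calc 2 * a = a * 2 := mul_comm _ _
      _ ≤ a * n := Nat.mul_le_mul_left _ (by omega)
  have haε2 : a * ε ≤ 2 * a := by rcases hε with rfl | rfl <;> omega
  have hK2 : 200 * K ≤ a * K := Nat.mul_le_mul_right _ ha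
  refine ⟨(2 * (a * K) + a * ε - t - d - a * n) / 2, (a * n + a * ε - t - d) / 2, ?_, ?_, ?_⟩
  · omega
  · omega
  · omega

/-- The numbers, third part. -/
lemma nums3 (a n K ε t d Mx F R Mt b q : ℕ) (hε : ε = 1 ∨ ε = 2) (hn : n = a * q)
    (hn4 : 4 ≤ n) (hK0 : 0 < K) (hKb : 2 * K ≤ b)
    (hMt : 2 * Mt + t + d + a * n = 2 * (a * K) + a * ε) (hF : 2 * K * F + R = Mt)
    (hMx : 16 * Mx * b ≤ q * a ^ 2) : 2 * F + 8 * Mx ≤ a := by
  by_contra hcon
  push Not at hcon
  have e1 : (2 * K) * (a + 1) ≤ (2 * K) * (2 * F + 8 * Mx) := Nat.mul_le_mul_left _ hcon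
  have e2 : (2 * K) * (2 * F) ≤ 2 * Mt := by
    calc (2 * K) * (2 * F) = 2 * (2 * K * F) := by ring
      _ ≤ 2 * Mt := by omega
  have e3 : (2 * K) * (8 * Mx) * 2 ≤ a * n := by
    calc (2 * K) * (8 * Mx) * 2 = 16 * Mx * (2 * K) := by ring
      _ ≤ 16 * Mx * b := Nat.mul_le_mul_left _ hKb
      _ ≤ q * a ^ 2 := hMx
      _ = a * n := by rw [hn]; ring
  have e4 : (2 * K) * (a + 1) = 2 * (a * K) + 2 * K := by ring
  have e5 : (2 * K) * (2 * F + 8 * Mx) = (2 * K) * (2 * F) + (2 * K) * (8 * Mx) := by ring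
  have e6 : 4 * a ≤ a * n := by
    calc 4 * a = a * 4 := mul_comm _ _
      _ ≤ a * n := Nat.mul_le_mul_left _ hn4
  have haε2 : a * ε ≤ 2 * a := by rcases hε with rfl | rfl <;> omega
  omega

/-- The assembly of the design. -/
lemma asm (hM : Marg) (a q K ε t d Mx F R Mt S : ℕ) (hε : ε = 1 ∨ ε = 2)
    (hK : a * q + a * q / 3 + 1 ≤ K) (hdK : d ≤ K) (hMx1 : 1 ≤ Mx) (hF1 : 1 ≤ F)
    (hRK : R < 2 * K) (hFR : 2 * K * F + R = Mt)
    (hFa : 2 * F + 8 * Mx ≤ a)
    (hMt : 2 * Mt + t + d + a * (a * q) = 2 * (a * K) + a * ε)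
    (hS : 2 * S + t + d = a * (a * q) + a * ε)
    (al : Fin a × Fin q → ℕ) (hal1 : ∀ j, 1 ≤ al j) (hal2 : ∀ j, al j + Mx + 1 ≤ a)
    (hal3 : ∑ j, al j = S) (c : Fin a × Fin q → ℕ) (hc : ∀ j, 1 ≤ c j ∧ c j ≤ Mx)
    (hct : ∑ j, c j = t) (u f₁ : Fin a × Fin q → Fin (K + ε)) (v f₂ : Fin a × Fin q → Fin K)
    (hu : ∀ j, (u j : ℕ) = ix j) (hv : ∀ j, (v j : ℕ) = ix j)
    (hf₁ : ∀ j, (f₁ j : ℕ) = a * q + ix j / 3) (hf₂ : ∀ j, (f₂ j : ℕ) = a * q + ix j / 3) :
    ∃ A B M g, Dsn a d al c u v f₁ f₂ A B M g := by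
  have hui : Function.Injective u := fun j j' h => ix_inj j j' (by
    rw [← hu j, ← hu j', h])
  have hvi : Function.Injective v := fun j j' h => ix_inj j j' (by
    rw [← hv j, ← hv j', h])
  have hN : K + 1 ≤ K + ε := by rcases hε with rfl | rfl <;> omega
  set g : Fin (K + ε) → ℕ := fun x => if (x : ℕ) < d then 1 else 0 with hg
  have hgsum : ∑ x, g x = d := first _ _ (by omega)
  have hg1 : ∀ x, g x ≤ 1 := by intro x; simp only [hg]; split_ifs <;> omega
  have hc1 : ∀ j, c j ≤ Mx := fun j => (hc j).2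
  -- columns of `O₁`
  have hb1 : ∀ x : Fin (K + ε), ∑ j, (if f₁ j = x then 1 else 0) +
      (∑ y : Fin K, Mf F R x y + ∑ j, (if u j = x then c j else 0) + g x) ≤ a := by
    intro x
    have e1 := frame_le _ f₁ hf₁ x
    have e2 := Mf_row F R K x
    have e3 := part_le u hui c Mx hc1 x
    have e4 := hg1 x
    omega
  have hb2 : ∀ y : Fin K, ∑ j, (if f₂ j = y then 1 else 0) +
      (∑ x : Fin (K + ε), Mf F R x y + ∑ j, (if v j = y then c j else 0)) ≤ a := by
    intro y
    have e1 := frame_le _ f₂ hf₂ y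
    have e2 := Mf_col F R (K + ε) K hN y
    have e3 := part_le v hvi c Mx hc1 y
    have e4 : (if 2 * (y : ℕ) < R then 1 else 0) + (if 2 * (y : ℕ) + 1 < R then 1 else 0) ≤ 2 := by
      split_ifs <;> omega
    omega
  have hMtot : ∑ x : Fin (K + ε), ∑ y : Fin K, Mf F R x y = Mt := by
    rw [Mf_tot F R _ K hN hRK.le, hFR]
  have hMtot' : ∑ y : Fin K, ∑ x : Fin (K + ε), Mf F R x y = Mt := by
    rw [sum_comm, hMtot]
  -- the matrix `A`
  obtain ⟨A, hA1, hA2, hA3⟩ := mat hM al
    (fun x : Fin (K + ε) =>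
      a - (∑ y : Fin K, Mf F R x y + ∑ j, (if u j = x then c j else 0) + g x)) f₁ hal1
    (fun x => by have := hb1 x; omega) (by
      have e1 : ∑ x : Fin (K + ε), (a - (∑ y : Fin K, Mf F R x y +
          ∑ j, (if u j = x then c j else 0) + g x)) +
          ∑ x : Fin (K + ε), (∑ y : Fin K, Mf F R x y +
          ∑ j, (if u j = x then c j else 0) + g x) = ∑ _x : Fin (K + ε), a := by
        rw [← sum_add_distrib]
        exact sum_congr rfl fun x _ => Nat.sub_add_cancel (by have := hb1 x; omega)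
      rw [sum_add_distrib, sum_add_distrib, hMtot, part_sum, hct, hgsum, sum_const, card_univ,
        Fintype.card_fin, smul_eq_mul] at e1
      have e2 : (K + ε) * a = a * K + a * ε := by ring
      rw [hal3]
      omega)
  -- the matrix `B`
  obtain ⟨B, hB1, hB2, hB3⟩ := mat hM (fun j => a - (al j + c j))
    (fun y : Fin K =>
      a - (∑ x : Fin (K + ε), Mf F R x y + ∑ j, (if v j = y then c j else 0))) f₂
    (fun j => by have e1 := hal2 j; have e2 := hc1 j; omega)
    (fun y => by have := hb2 y; omega) (by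
      have e1 : ∑ y : Fin K, (a - (∑ x : Fin (K + ε), Mf F R x y +
          ∑ j, (if v j = y then c j else 0))) +
          ∑ y : Fin K, (∑ x : Fin (K + ε), Mf F R x y +
          ∑ j, (if v j = y then c j else 0)) = ∑ _y : Fin K, a := by
        rw [← sum_add_distrib]
        exact sum_congr rfl fun y _ => Nat.sub_add_cancel (by have := hb2 y; omega)
      rw [sum_add_distrib, hMtot', part_sum, hct, sum_const, card_univ,
        Fintype.card_fin, smul_eq_mul] at e1
      have e2 : ∑ j, (a - (al j + c j)) + ∑ j, (al j + c j) = ∑ _j : Fin a × Fin q, a := by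
        rw [← sum_add_distrib]
        exact sum_congr rfl fun j _ => Nat.sub_add_cancel (by
          have e1 := hal2 j; have e2 := hc1 j; omega)
      rw [sum_add_distrib, hal3, hct, sum_const, card_univ, Fintype.card_prod, Fintype.card_fin,
        Fintype.card_fin, smul_eq_mul] at e2
      have e3 : K * a = a * K := by ring
      have e4 : a * q * a = a * (a * q) := by ring
      omega)
  refine ⟨A, B, fun x y => Mf F R x y, g, ?_⟩
  refine
    { pos := fun j => (hc j).1
      rowA := hA1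
      rowB := fun j => ?_
      col1 := fun x => ?_
      col2 := fun y => ?_
      sumg := hgsum
      fr1 := hA3
      fr2 := hB3
      fr3 := fun j => ?_
      fr4 := fun j j' => ?_
      fr5 := fun j j' => ?_
      inju := hui
      injv := hvi
      up := fun s h1 h2 => ?_ }
  · rw [hB1]
    have e1 := hal2 j
    have e2 := hc1 j
    omega
  · rw [hA2]
    have e1 := hb1 x
    have e4 : (a - (∑ y : Fin K, Mf F R x y + ∑ j, (if u j = x then c j else 0) + g x)) +
        ∑ y : Fin K, Mf F R x y + ∑ j, (if u j = x then c j else 0) + g x = a := by omega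
    refine Eq.trans (congrArg₂ HAdd.hAdd (congrArg₂ HAdd.hAdd rfl ?_) rfl) e4
    exact sum_congr rfl fun j _ => by split_ifs <;> rfl
  · rw [hB2]
    have e1 := hb2 y
    have e4 : (a - (∑ x : Fin (K + ε), Mf F R x y + ∑ j, (if v j = y then c j else 0))) +
        ∑ x : Fin (K + ε), Mf F R x y + ∑ j, (if v j = y then c j else 0) = a := by omega
    refine Eq.trans (congrArg₂ HAdd.hAdd rfl ?_) e4
    exact sum_congr rfl fun j _ => by split_ifs <;> rfl
  · unfold Mf
    rw [if_pos (show ((f₁ j : Fin (K + ε)) : ℕ) = (f₂ j : ℕ) by rw [hf₁, hf₂])]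
    omega
  · intro h
    have e1 := congrArg Fin.val h
    have e2 := ix_lt j'
    rw [hu, hf₁] at e1
    omega
  · intro h
    have e1 := congrArg Fin.val h
    have e2 := ix_lt j'
    rw [hv, hf₂] at e1
    omega
  · exact up_path F R (K + ε) K hN hF1 s (by rw [Fintype.card_fin] at h1; exact h1) h2

theorem des (hM : Marg) : DesTB := by
  intro a b q m t d Mx hq ha hm hMx1 hd hpar ht hb hMx
  obtain ⟨ε, K, hε, hbK, hK, hdK, hn2, hK3⟩ := nums1 a b q d hq ha hd hb
  have hMx64 := numsM a b q Mx hq ha hb hMx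
  have htn : t ≤ a * q * Mx := by rw [mul_comm a q]; exact ht
  rw [hbK] at hpar
  obtain ⟨Mt, S, hMt, hS, hKM⟩ := nums2 a (a * q) K ε t d Mx hε (by omega) hn2 hK3 hd htn hMx64
    hpar
  have hS1 : 2 * S ≤ (a * q + 2) * a := by
    have e1 : a * ε ≤ 2 * a := by rcases hε with rfl | rfl <;> omega
    have e2 : (a * q + 2) * a = a * (a * q) + 2 * a := by ring
    omega
  have hS2 : a * q * a ≤ 2 * S + a * q * Mx := by
    have e1 : a ≤ a * ε := by rcases hε with rfl | rfl <;> omega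
    have e2 : a * q * a = a * (a * q) := by ring
    omega
  obtain ⟨al, hal1, hal2, hal3, hal4⟩ := labels a q m S Mx hq ha hm hMx64 hS1 hS2
  have hK0 : 0 < 2 * K := by omega
  have hFR : 2 * K * (Mt / (2 * K)) + Mt % (2 * K) = Mt := Nat.div_add_mod _ _
  have hF1 : 1 ≤ Mt / (2 * K) := (Nat.one_le_div_iff hK0).2 hKM
  have hFa := nums3 a (a * q) K ε t d Mx _ _ Mt b q hε rfl (by omega) (by omega)
    (by omega) hMt hFR hMx
  refine ⟨K + ε, K, al, fun j => ⟨ix j, by have := ix_lt j; omega⟩,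
    fun j => ⟨a * q + ix j / 3, by have := ix_lt j; omega⟩,
    fun j => ⟨ix j, by have := ix_lt j; omega⟩,
    fun j => ⟨a * q + ix j / 3, by have := ix_lt j; omega⟩, by omega, hal4, ?_⟩
  intro c hc hct
  exact asm hM a q K ε t d Mx _ _ Mt S hε hK hdK hMx1 hF1 (Nat.mod_lt _ hK0) hFR hFa hMt hS al
    hal1 hal2 hal3 c hc hct _ _ _ _ (fun j => rfl) (fun j => rfl) (fun j => rfl) (fun j => rfl)

end Vale.Agent.P181.TB.H388
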