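import Vale.Agent.P181.TB.H388.Des
import Vale.Agent.P181.TB.H761.Marg

set_option autoImplicit false

namespace Vale.Agent.P181.TB.H388

/-- **(TB3)** closed. -/
theorem desTB : DesTB := des Vale.Agent.P181.TB.H761.marg

end Vale.Agent.P181.TB.H388
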